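import Vale.Agent.P137.Defs

/-!
The exponential smoothing kernel: a probability density whose gradient is bounded by itself
divided by the scale.
-/

namespace Vale.Agent.P137

open MeasureTheory Metric Set Filter Topology
open scoped ENNReal NNReal ContDiff RealInnerProductSpace

noncomputable section

variable {d : ℕ}

/-- The unnormalised profile of the kernel. -/
def kexp (z : E d) : ℝ := Real.exp (-√(1 + ‖z‖ ^ 2))

/-- The normalised exponential kernel at scale `t`. -/
def kern (t : ℝ) (z : E d) : ℝ := ((t ^ d) * ∫ w : E d, kexp w)⁻¹ * kexp (t⁻¹ • z)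

/-- Smoothing at scale `t`. -/
def smK {F : Type*} [NormedAddCommGroup F] [NormedSpace ℝ F] (t : ℝ) (u : E d → F) (x : E d) : F :=
  ∫ y, kern t (x - y) • u y

lemma kexp_pos (z : E d) : 0 < kexp z := Real.exp_pos _

lemma norm_le_sqrt_one_add (z : E d) : ‖z‖ ≤ √(1 + ‖z‖ ^ 2) :=
  Real.le_sqrt_of_sq_le (by linarith)

lemma sqrt_one_add_le (z : E d) : √(1 + ‖z‖ ^ 2) ≤ 1 + ‖z‖ :=
  Real.sqrt_le_iff.2 ⟨by positivity, by nlinarith [norm_nonneg z]⟩

lemma kexp_le (z : E d) : kexp z ≤ Real.exp (-‖z‖) :=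
  Real.exp_le_exp.2 (neg_le_neg (norm_le_sqrt_one_add z))

lemma exp_le_kexp (z : E d) : Real.exp (-1) * Real.exp (-‖z‖) ≤ kexp z := by
  rw [← Real.exp_add]
  exact Real.exp_le_exp.2 (by linarith [sqrt_one_add_le z])

lemma kexp_neg (z : E d) : kexp (-z) = kexp z := by simp [kexp]

lemma continuous_kexp : Continuous (kexp : E d → ℝ) := by
  unfold kexp
  fun_prop

theorem contDiff_kexp : ContDiff ℝ ∞ (kexp : E d → ℝ) := by
  unfold kexp
  exact (((contDiff_const.add (contDiff_norm_sq ℝ)).sqrt fun z => by positivity).neg).exp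

lemma integrable_exp_neg_norm {b : ℝ} (hb : 0 < b) :
    Integrable fun z : E d => Real.exp (-(b * ‖z‖)) := by
  have hn : (Module.finrank ℝ (E d) : ℝ) < ((d + 1 : ℕ) : ℝ) := by
    rw [finrank_euclideanSpace_fin]; exact_mod_cast Nat.lt_succ_self d
  refine ((integrable_one_add_norm (μ := (volume : Measure (E d))) hn).const_mul
    ((b ^ (d + 1))⁻¹ * (d + 1).factorial * Real.exp b)).mono' (by fun_prop)
    (ae_of_all _ fun z => ?_)
  rw [Real.norm_eq_abs, abs_of_pos (Real.exp_pos _), Real.rpow_neg (by positivity),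
    Real.rpow_natCast]
  have h := Real.pow_div_factorial_le_exp (x := b * (1 + ‖z‖)) (by positivity) (d + 1)
  rw [div_le_iff₀ (by positivity), mul_pow, mul_add, mul_one, Real.exp_add] at h
  have hz : 0 < (1 + ‖z‖) ^ (d + 1) := by positivity
  have hb' : 0 < b ^ (d + 1) := by positivity
  rw [Real.exp_neg, ← one_div, div_le_iff₀ (Real.exp_pos _)]
  calc (1 : ℝ) = (b ^ (d + 1) * (1 + ‖z‖) ^ (d + 1)) * ((b ^ (d + 1))⁻¹ * ((1 + ‖z‖) ^ (d + 1))⁻¹) := by
        field_simp
    _ ≤ (Real.exp b * Real.exp (b * ‖z‖) * (d + 1).factorial) *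
          ((b ^ (d + 1))⁻¹ * ((1 + ‖z‖) ^ (d + 1))⁻¹) :=
        mul_le_mul_of_nonneg_right h (by positivity)
    _ = _ := by ring

lemma integrable_kexp : Integrable (kexp : E d → ℝ) :=
  (show Integrable fun z : E d => Real.exp (-‖z‖) by
    simpa using integrable_exp_neg_norm (d := d) one_pos).mono'
    continuous_kexp.aestronglyMeasurable
    (ae_of_all _ fun z => by rw [Real.norm_eq_abs, abs_of_pos (kexp_pos z)]; exact kexp_le z)

lemma integral_kexp_pos : 0 < ∫ z : E d, kexp z :=
  integral_pos_of_integrable_nonneg_nonzero continuous_kexp integrable_kexp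
    (fun z => (kexp_pos z).le) (kexp_pos 0).ne'

lemma hasFDerivAt_kexp (z : E d) :
    HasFDerivAt kexp (-(kexp z / √(1 + ‖z‖ ^ 2)) • innerSL ℝ z) z := by
  have h := ((((hasStrictFDerivAt_norm_sq z).hasFDerivAt).const_add 1).sqrt
    (by positivity : (1 : ℝ) + ‖z‖ ^ 2 ≠ 0)).neg.exp
  have h' : HasFDerivAt kexp _ z := h
  refine h'.congr_fderiv (ContinuousLinearMap.ext fun v => ?_)
  simp [kexp]
  field_simp

lemma norm_fderiv_kexp (z : E d) : ‖fderiv ℝ kexp z‖ ≤ kexp z := by
  rw [(hasFDerivAt_kexp z).fderiv, norm_smul, innerSL_apply_norm, Real.norm_eq_abs, abs_neg,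
    abs_of_pos (div_pos (kexp_pos z) (by positivity)), div_mul_eq_mul_div,
    div_le_iff₀ (by positivity)]
  exact mul_le_mul_of_nonneg_left (norm_le_sqrt_one_add z) (kexp_pos z).le

lemma sqrt_one_add_sub_le (z h : E d) :
    √(1 + ‖z‖ ^ 2) - √(1 + ‖z + h‖ ^ 2) ≤ ‖h‖ := by
  rw [sub_le_iff_le_add', Real.sqrt_le_iff]
  refine ⟨by positivity, ?_⟩
  have h1 := Real.sq_sqrt (show (0 : ℝ) ≤ 1 + ‖z + h‖ ^ 2 by positivity)
  have h2 : ‖z‖ ≤ ‖z + h‖ + ‖h‖ := by simpa using norm_sub_le (z + h) h
  nlinarith [norm_le_sqrt_one_add (z + h), norm_nonneg h, norm_nonneg z, norm_nonneg (z + h),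
    mul_le_mul h2 h2 (norm_nonneg z) (by positivity)]

lemma kexp_shift (z h : E d) : kexp (z + h) ≤ Real.exp ‖h‖ * kexp z := by
  rw [kexp, kexp, ← Real.exp_add]
  exact Real.exp_le_exp.2 (by linarith [sqrt_one_add_sub_le z h])

section Kern

variable {t : ℝ}

lemma kern_const_pos (ht : 0 < t) : 0 < (t ^ d * ∫ w : E d, kexp w)⁻¹ :=
  inv_pos.2 (mul_pos (pow_pos ht d) integral_kexp_pos)

theorem kern_pos (ht : 0 < t) (z : E d) : 0 < kern t z :=
  mul_pos (kern_const_pos ht) (kexp_pos _)

theorem kern_nonneg (ht : 0 < t) (z : E d) : 0 ≤ kern t z := (kern_pos ht z).le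

theorem kern_neg (t : ℝ) (z : E d) : kern t (-z) = kern t z := by
  simp [kern, kexp_neg]

theorem kern_sub_comm (t : ℝ) (x y : E d) : kern t (x - y) = kern t (y - x) := by
  rw [← kern_neg, neg_sub]

theorem kern_eq_of_norm_eq (t : ℝ) {z w : E d} (h : ‖z‖ = ‖w‖) : kern t z = kern t w := by
  simp [kern, kexp, norm_smul, h]

theorem continuous_kern (t : ℝ) : Continuous (kern t : E d → ℝ) :=
  continuous_const.mul (continuous_kexp.comp (continuous_const_smul t⁻¹))

theorem contDiff_kern (t : ℝ) : ContDiff ℝ ∞ (kern t : E d → ℝ) :=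
  contDiff_const.mul (contDiff_kexp.comp (contDiff_const_smul t⁻¹))

theorem integrable_kern (ht : 0 < t) : Integrable (kern t : E d → ℝ) :=
  ((integrable_comp_smul_iff volume kexp (inv_ne_zero ht.ne')).2 integrable_kexp).const_mul _

theorem integral_kern (ht : 0 < t) : ∫ z : E d, kern t z = 1 := by
  simp only [kern]
  rw [integral_const_mul, Measure.integral_comp_inv_smul_of_nonneg volume kexp ht.le,
    finrank_euclideanSpace_fin, smul_eq_mul]
  exact inv_mul_cancel₀ (mul_pos (pow_pos ht d) integral_kexp_pos).ne'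

theorem integral_kern_sub (ht : 0 < t) (x : E d) : ∫ y, kern t (x - y) = 1 := by
  rw [integral_sub_left_eq_self (kern t) volume x, integral_kern ht]

theorem integrable_kern_sub (ht : 0 < t) (x : E d) : Integrable fun y => kern t (x - y) :=
  (integrable_kern ht).comp_sub_left x

theorem differentiable_kern (t : ℝ) : Differentiable ℝ (kern t : E d → ℝ) :=
  (contDiff_kern t).differentiable (by simp)

theorem norm_fderiv_kern_le (ht : 0 < t) (z : E d) :
    ‖fderiv ℝ (kern t) z‖ ≤ t⁻¹ * kern t z := by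
  have h : HasFDerivAt (kern t : E d → ℝ) ((t ^ d * ∫ w : E d, kexp w)⁻¹ •
      (fderiv ℝ kexp (t⁻¹ • z)).comp (t⁻¹ • ContinuousLinearMap.id ℝ (E d))) z :=
    ((hasFDerivAt_kexp _).differentiableAt.hasFDerivAt.comp z
      ((hasFDerivAt_id z).const_smul t⁻¹)).const_mul _
  rw [h.fderiv, norm_smul, Real.norm_eq_abs, abs_of_pos (kern_const_pos ht), kern, mul_left_comm,
    ContinuousLinearMap.comp_smul, ContinuousLinearMap.comp_id, norm_smul, Real.norm_eq_abs,
    abs_of_pos (inv_pos.2 ht)]
  exact mul_le_mul_of_nonneg_left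
    (mul_le_mul_of_nonneg_left (norm_fderiv_kexp _) (inv_nonneg.2 ht.le)) (kern_const_pos ht).le

theorem norm_gradient_kern_le (ht : 0 < t) (z : E d) :
    ‖gradient (kern t) z‖ ≤ t⁻¹ * kern t z := by
  rw [gradient, LinearIsometryEquiv.norm_map]
  exact norm_fderiv_kern_le ht z

theorem kern_shift (ht : 0 < t) (z h : E d) :
    kern t (z + h) ≤ Real.exp (t⁻¹ * ‖h‖) * kern t z := by
  rw [kern, kern, smul_add, mul_left_comm]
  refine mul_le_mul_of_nonneg_left ((kexp_shift _ _).trans_eq ?_) (kern_const_pos ht).le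
  rw [norm_smul, Real.norm_eq_abs, abs_of_pos (inv_pos.2 ht)]

theorem kern_le (ht : 0 < t) (z : E d) :
    kern t z ≤ (∫ w : E d, kexp w)⁻¹ * ((t ^ d)⁻¹ * Real.exp (-(‖z‖ / t))) := by
  rw [kern, mul_inv, mul_comm (t ^ d)⁻¹, mul_assoc]
  refine mul_le_mul_of_nonneg_left (mul_le_mul_of_nonneg_left ((kexp_le _).trans_eq ?_)
    (by positivity)) (inv_pos.2 integral_kexp_pos).le
  rw [norm_smul, Real.norm_eq_abs, abs_of_pos (inv_pos.2 ht), div_eq_inv_mul]

theorem le_kern (ht : 0 < t) (z : E d) :
    (∫ w : E d, kexp w)⁻¹ * Real.exp (-1) * ((t ^ d)⁻¹ * Real.exp (-(‖z‖ / t))) ≤ kern t z := by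
  rw [kern, mul_inv, mul_comm (t ^ d)⁻¹ (∫ w : E d, kexp w)⁻¹, mul_assoc, mul_assoc]
  refine mul_le_mul_of_nonneg_left ?_ (inv_pos.2 integral_kexp_pos).le
  rw [mul_left_comm]
  refine mul_le_mul_of_nonneg_left (le_trans (le_of_eq ?_) (exp_le_kexp _)) (by positivity)
  rw [norm_smul, Real.norm_eq_abs, abs_of_pos (inv_pos.2 ht), div_eq_inv_mul]

/-- The kernel has exponentially small mass away from the origin, uniformly in the scale. -/
theorem exists_kern_tail :
    ∃ C : ℝ, 0 ≤ C ∧ ∀ t : ℝ, 0 < t → ∀ s : ℝ,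
      ∫ z in {z : E d | s ≤ ‖z‖}, kern t z ≤ C * Real.exp (-(s / (2 * t))) := by
  set Z := ∫ w : E d, kexp w
  have hZ : 0 < Z := integral_kexp_pos
  set J := ∫ w : E d, Real.exp (-((2 : ℝ)⁻¹ * ‖w‖))
  have hJ : 0 ≤ J := integral_nonneg fun _ => (Real.exp_pos _).le
  refine ⟨Z⁻¹ * J, by positivity, fun t ht s => ?_⟩
  set A := Z⁻¹ * (t ^ d)⁻¹ * Real.exp (-(s / (2 * t)))
  set G : E d → ℝ := fun z => A * Real.exp (-((2 : ℝ)⁻¹ * ‖t⁻¹ • z‖))
  have hA : 0 ≤ A := by positivity
  have hG : Integrable G := ((integrable_comp_smul_iff volume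
    (fun w : E d => Real.exp (-((2 : ℝ)⁻¹ * ‖w‖))) (inv_ne_zero ht.ne')).2
      (integrable_exp_neg_norm (by norm_num))).const_mul A
  calc ∫ z in {z : E d | s ≤ ‖z‖}, kern t z ≤ ∫ z in {z : E d | s ≤ ‖z‖}, G z := by
        refine setIntegral_mono_on (integrable_kern ht).integrableOn hG.integrableOn
          (measurableSet_le measurable_const measurable_norm) fun z (hz : s ≤ ‖z‖) => ?_
        refine (kern_le ht z).trans ?_
        simp only [G, A, mul_assoc]
        refine mul_le_mul_of_nonneg_left (mul_le_mul_of_nonneg_left ?_ (by positivity))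
          (inv_nonneg.2 hZ.le)
        rw [← Real.exp_add, Real.exp_le_exp, norm_smul, Real.norm_eq_abs,
          abs_of_pos (inv_pos.2 ht)]
        have : s / t ≤ ‖z‖ / t := div_le_div_of_nonneg_right hz ht.le
        have e1 : s / (2 * t) = s / t / 2 := by rw [div_div, mul_comm]
        have e2 := div_eq_inv_mul ‖z‖ t
        rw [e1]
        linarith
    _ ≤ ∫ z, G z := setIntegral_le_integral hG
        (ae_of_all _ fun z => mul_nonneg hA (Real.exp_pos _).le)
    _ = _ := by
        simp only [G]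
        rw [integral_const_mul, Measure.integral_comp_inv_smul_of_nonneg volume
          (fun w : E d => Real.exp (-((2 : ℝ)⁻¹ * ‖w‖))) ht.le, finrank_euclideanSpace_fin,
          smul_eq_mul]
        simp only [A, J]
        field_simp

theorem kern_bounded (ht : 0 < t) (z : E d) : ‖kern t z‖ ≤ (t ^ d * ∫ w : E d, kexp w)⁻¹ := by
  rw [Real.norm_eq_abs, abs_of_pos (kern_pos ht z), kern]
  refine mul_le_of_le_one_right (kern_const_pos ht).le (Real.exp_le_one_iff.2 ?_)
  exact neg_nonpos.2 (Real.sqrt_nonneg _)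

end Kern

section Smooth

variable {F : Type*} [NormedAddCommGroup F] [NormedSpace ℝ F] {t : ℝ} {u : E d → F}

theorem integrable_kern_smul (ht : 0 < t) (hu : Integrable u) (x : E d) :
    Integrable fun y => kern t (x - y) • u y :=
  hu.bdd_smul _ ((continuous_kern t).comp (by fun_prop)).aestronglyMeasurable
    (ae_of_all _ fun _ => kern_bounded ht _)

theorem integrable_kern_smul_of_bounded (ht : 0 < t) (hm : AEStronglyMeasurable u volume)
    {C : ℝ} (hu : ∀ y, ‖u y‖ ≤ C) (x : E d) : Integrable fun y => kern t (x - y) • u y := by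
  refine ((integrable_kern_sub ht x).mul_const C).mono'
    (((continuous_kern t).comp (by fun_prop)).aestronglyMeasurable.smul hm) (ae_of_all _ fun y => ?_)
  rw [norm_smul, Real.norm_eq_abs, abs_of_pos (kern_pos ht _)]
  exact mul_le_mul_of_nonneg_left (hu y) (kern_nonneg ht _)

theorem norm_smK_le (ht : 0 < t) (x : E d) : ‖smK t u x‖ ≤ smK t (fun y => ‖u y‖) x := by
  refine (norm_integral_le_integral_norm _).trans_eq (integral_congr_ae (ae_of_all _ fun y => ?_))
  simp [norm_smul, abs_of_pos (kern_pos ht (x - y))]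

theorem smK_const [CompleteSpace F] (ht : 0 < t) (c : F) (x : E d) :
    smK t (fun _ => c) x = c := by
  rw [smK, integral_smul_const, integral_kern_sub ht, one_smul]

theorem norm_smK_le_of_bounded (ht : 0 < t) {C : ℝ} (hu : ∀ y, ‖u y‖ ≤ C) (x : E d) :
    ‖smK t u x‖ ≤ C := by
  refine (norm_smK_le ht x).trans ?_
  refine (integral_mono_of_nonneg (ae_of_all _ fun y => ?_) ((integrable_kern_sub ht x).mul_const C)
    (ae_of_all _ fun y => mul_le_mul_of_nonneg_left (hu y) (kern_nonneg ht _))).trans_eq ?_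
  · exact mul_nonneg (kern_nonneg ht _) (norm_nonneg _)
  · rw [integral_mul_const, integral_kern_sub ht, one_mul]

theorem integrable_kern_prod (ht : 0 < t) (hu : Integrable u) :
    Integrable (fun p : E d × E d => kern t (p.1 - p.2) • u p.2) (volume.prod volume) :=
  Integrable.convolution_integrand (L := (ContinuousLinearMap.lsmul ℝ ℝ : ℝ →L[ℝ] F →L[ℝ] F).flip)
    hu (integrable_kern ht)

theorem integrable_smK (ht : 0 < t) (hu : Integrable u) : Integrable (smK t u) :=
  (integrable_kern_prod ht hu).integral_prod_left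

theorem integral_smK [CompleteSpace F] (ht : 0 < t) (hu : Integrable u) :
    ∫ x, smK t u x = ∫ y, u y := by
  simp only [smK]
  rw [integral_integral_swap (integrable_kern_prod ht hu)]
  refine integral_congr_ae (ae_of_all _ fun y => ?_)
  simp only
  rw [integral_smul_const, integral_sub_right_eq_self (kern t) y, integral_kern ht, one_smul]

theorem integral_norm_smK_le (ht : 0 < t) (hu : Integrable u) :
    ∫ x, ‖smK t u x‖ ≤ ∫ y, ‖u y‖ :=
  (integral_mono (integrable_smK ht hu).norm (integrable_smK ht hu.norm) (norm_smK_le ht)).trans_eq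
    (integral_smK ht hu.norm)

theorem stronglyMeasurable_smK (hu : StronglyMeasurable u) (t : ℝ) :
    StronglyMeasurable (smK t u) :=
  StronglyMeasurable.integral_prod_right'
    (f := fun p : E d × E d => kern t (p.1 - p.2) • u p.2)
    (((continuous_kern t).comp (by fun_prop)).stronglyMeasurable.smul
      (hu.comp_measurable measurable_snd))

/-- Derivative of the smoothing, for integrable or bounded data. -/
theorem hasFDerivAt_smK (ht : 0 < t) (hm : AEStronglyMeasurable u volume) {x : E d}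
    (hint : Integrable fun y => kern t (x - y) • u y) :
    HasFDerivAt (smK t u) (∫ y, (fderiv ℝ (kern t) (x - y)).smulRight (u y)) x := by
  have hn : Integrable fun y => kern t (x - y) * ‖u y‖ :=
    hint.norm.congr (ae_of_all _ fun y => by simp [norm_smul, abs_of_pos (kern_pos ht (x - y))])
  refine hasFDerivAt_integral_of_dominated_of_fderiv_le (F := fun x y => kern t (x - y) • u y)
    (F' := fun x y => (fderiv ℝ (kern t) (x - y)).smulRight (u y))
    (bound := fun y => t⁻¹ * Real.exp t⁻¹ * (kern t (x - y) * ‖u y‖))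
    (ball_mem_nhds x one_pos)
    (Eventually.of_forall fun z =>
      ((continuous_kern t).comp (by fun_prop)).aestronglyMeasurable.smul hm)
    hint ?_ (ae_of_all _ fun y z hz => ?_) (hn.const_mul _) (ae_of_all _ fun y z _ => ?_)
  · exact (ContinuousLinearMap.smulRightL ℝ (E d) F).aestronglyMeasurable_comp₂
      (((contDiff_kern t).continuous_fderiv (by simp)).comp (by fun_prop)).aestronglyMeasurable hm
  · rw [ContinuousLinearMap.norm_smulRight_apply]
    refine (mul_le_mul_of_nonneg_right (norm_fderiv_kern_le ht _) (norm_nonneg _)).trans ?_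
    rw [mul_assoc t⁻¹, mul_assoc t⁻¹, ← mul_assoc (Real.exp t⁻¹)]
    refine mul_le_mul_of_nonneg_left (mul_le_mul_of_nonneg_right ?_ (norm_nonneg _))
      (inv_nonneg.2 ht.le)
    have h := kern_shift ht (x - y) (z - x)
    rw [show x - y + (z - x) = z - y by abel] at h
    refine h.trans (mul_le_mul_of_nonneg_right (Real.exp_le_exp.2 ?_) (kern_nonneg ht _))
    exact mul_le_of_le_one_right (inv_nonneg.2 ht.le) (by simpa [dist_eq_norm] using hz.le)
  · exact ((differentiable_kern t (z - y)).hasFDerivAt.comp z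
      ((hasFDerivAt_id z).sub_const y)).smul_const (u y)

theorem differentiable_smK (ht : 0 < t) (hm : AEStronglyMeasurable u volume)
    (hint : ∀ x, Integrable fun y => kern t (x - y) • u y) : Differentiable ℝ (smK t u) :=
  fun x => (hasFDerivAt_smK ht hm (hint x)).differentiableAt

theorem norm_fderiv_smK_le (ht : 0 < t) (hm : AEStronglyMeasurable u volume) {x : E d}
    (hint : Integrable fun y => kern t (x - y) • u y) :
    ‖fderiv ℝ (smK t u) x‖ ≤ t⁻¹ * smK t (fun y => ‖u y‖) x := by
  rw [(hasFDerivAt_smK ht hm hint).fderiv, smK, ← integral_const_mul]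
  refine (norm_integral_le_integral_norm _).trans (integral_mono_of_nonneg
    (ae_of_all _ fun y => norm_nonneg _) (hint.norm.congr (ae_of_all _ fun y => ?_) |>.const_mul _)
    (ae_of_all _ fun y => ?_))
  · simp [norm_smul, abs_of_pos (kern_pos ht (x - y))]
  · simp only [ContinuousLinearMap.norm_smulRight_apply, smul_eq_mul, ← mul_assoc]
    exact mul_le_mul_of_nonneg_right (norm_fderiv_kern_le ht _) (norm_nonneg _)

end Smooth

section Adjoint

variable {F : Type*} [NormedAddCommGroup F] [InnerProductSpace ℝ F] [CompleteSpace F] {t : ℝ}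

/-- Smoothing is self-adjoint. -/
theorem integral_inner_smK (ht : 0 < t) {G e : E d → F} (hG : Integrable G)
    (he : AEStronglyMeasurable e volume) {C : ℝ} (hC : ∀ x, ‖e x‖ ≤ C) :
    ∫ x, ⟪smK t G x, e x⟫ = ∫ y, ⟪G y, smK t e y⟫ := by
  have hP := integrable_kern_prod ht hG
  have hI : Integrable (fun p : E d × E d => ⟪kern t (p.1 - p.2) • G p.2, e p.1⟫)
      (volume.prod volume) := by
    refine (hP.norm.mul_const C).mono' (hP.aestronglyMeasurable.inner he.comp_fst)
      (ae_of_all _ fun p => (norm_inner_le_norm _ _).trans ?_)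
    exact mul_le_mul_of_nonneg_left (hC p.1) (norm_nonneg _)
  calc ∫ x, ⟪smK t G x, e x⟫ = ∫ x, ∫ y, ⟪kern t (x - y) • G y, e x⟫ := by
        refine integral_congr_ae (ae_of_all _ fun x => ?_)
        simp only [smK]
        rw [real_inner_comm, ← integral_inner (integrable_kern_smul ht hG x) (e x)]
        exact integral_congr_ae (ae_of_all _ fun y => real_inner_comm _ _)
    _ = ∫ y, ∫ x, ⟪kern t (x - y) • G y, e x⟫ := integral_integral_swap hI
    _ = _ := by
        refine integral_congr_ae (ae_of_all _ fun y => ?_)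
        simp only [smK]
        rw [← integral_inner (integrable_kern_smul_of_bounded ht he hC y) (G y)]
        refine integral_congr_ae (ae_of_all _ fun x => ?_)
        simp only [real_inner_smul_left, real_inner_smul_right, kern_sub_comm t x y]

end Adjoint

end

end Vale.Agent.P137
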