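import Vale.Agent.P137.MaxFun

/-!
The centred maximal function of a nice function: attained radius, the gradient at an optimal
radius, and stationarity in the radius.
-/

namespace Vale.Agent.P137

open MeasureTheory Metric Set Filter Topology
open scoped ENNReal NNReal ContDiff RealInnerProductSpace

noncomputable section

variable {d : ℕ}

/-- The centred maximal function: the supremum over open balls centred at `x` of the average of
`|f|`. -/
def Mc (f : E d → ℝ) (x : E d) : ℝ≥0∞ :=
  ⨆ (r : ℝ) (_ : 0 < r), (volume (ball x r))⁻¹ * ∫⁻ z in ball x r, ‖f z‖ₑ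

/-- The maximum of `f x` and all averages over closed balls centred at `x`. -/
def cmax (f : E d → ℝ) (x : E d) : ℝ :=
  sSup (insert (f x) ((fun r : ℝ => avgB f x r) '' Ioi 0))

/-- The average of a vector field over a ball, written on the unit ball. -/
def avgV (g : E d → E d) (c : E d) (r : ℝ) : E d :=
  (volume.real (closedBall (0 : E d) 1))⁻¹ • ∫ z in closedBall (0 : E d) 1, g (c + r • z)

/-- The radial average of a vector field over a ball: the derivative of the average in the
radius. -/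
def avgR (g : E d → E d) (c : E d) (r : ℝ) : ℝ :=
  (volume.real (closedBall (0 : E d) 1))⁻¹ *
    ∫ z in closedBall (0 : E d) 1, ⟪g (c + r • z), z⟫

variable {f : E d → ℝ} {g : E d → E d}

lemma bddAbove_cset (hf : IsC1c f g) (x : E d) :
    BddAbove (insert (f x) ((fun r : ℝ => avgB f x r) '' Ioi 0)) := by
  refine (bddAbove_set hf x).mono (insert_subset_insert ?_)
  rintro _ ⟨r, hr, rfl⟩
  exact ⟨(x, r), ⟨hr, by simpa using (le_of_lt hr)⟩, rfl⟩

theorem le_cmax (hf : IsC1c f g) (x : E d) : f x ≤ cmax f x :=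
  le_csSup (bddAbove_cset hf x) (mem_insert _ _)

theorem avgB_le_cmax (hf : IsC1c f g) (x : E d) {r : ℝ} (hr : 0 < r) :
    avgB f x r ≤ cmax f x :=
  le_csSup (bddAbove_cset hf x) (mem_insert_of_mem _ ⟨r, hr, rfl⟩)

theorem avgN_le_cmax (hf : IsC1c f g) (x : E d) {r : ℝ} (hr : 0 ≤ r) :
    avgN f x r ≤ cmax f x := by
  rcases hr.eq_or_lt with rfl | hr
  · rw [avgN_zero]; exact le_cmax hf x
  · rw [← avgB_eq_avgN f x hr]; exact avgB_le_cmax hf x hr

theorem cmax_le {x : E d} {a : ℝ} (h : ∀ r, 0 ≤ r → avgN f x r ≤ a) :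
    cmax f x ≤ a := by
  refine csSup_le (insert_nonempty _ _) (forall_mem_insert.2 ⟨?_, ?_⟩)
  · simpa [avgN_zero] using h 0 le_rfl
  · rintro _ ⟨r, hr, rfl⟩
    show avgB f x r ≤ a
    rw [avgB_eq_avgN f x hr]
    exact h r (le_of_lt hr)

theorem cmax_le_umax (hf : IsC1c f g) (x : E d) : cmax f x ≤ umax f x :=
  cmax_le fun _ hr => avgN_le_umax hf hr (by simpa using hr)

theorem exists_lipschitz_cmax (hf : IsC1c f g) : ∃ L : ℝ≥0, LipschitzWith L (cmax f) := by
  obtain ⟨L, hL⟩ := hf.exists_lipschitz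
  refine ⟨L, LipschitzWith.of_le_add_mul L fun x y => cmax_le fun r hr => ?_⟩
  have h1 := avgN_sub_le hf hL x y r r
  have h2 := avgN_le_cmax hf y hr
  rw [sub_self, abs_zero, add_zero, ← dist_eq_norm] at h1
  linarith

/-- At a detached point the supremum is attained at a positive radius. -/
theorem exists_optimal_radius (hd : 0 < d) (hf : IsC1c f g) (h0 : ∀ z, 0 ≤ f z) {x : E d}
    (hx : f x < cmax f x) : ∃ r, 0 < r ∧ avgB f x r = cmax f x := by
  set W := volume.real (closedBall (0 : E d) 1)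
  have hW : 0 < W := unitBall_pos
  set m := (f x + cmax f x) / 2 with hm
  have hm1 : f x < m := by rw [hm]; linarith
  have hm2 : m < cmax f x := by rw [hm]; linarith
  have hm0 : 0 < m := (h0 x).trans_lt hm1
  set R := max 1 ((∫ z, f z) / (m * W))
  have hbound : ∀ r, 0 ≤ r → m < avgN f x r → r ≤ R := by
    intro r hr hlt
    rcases le_or_gt r 1 with h | h
    · exact le_max_of_le_left h
    refine le_max_of_le_right ((le_div_iff₀ (mul_pos hm0 hW)).2 ?_)
    have hr0 : 0 < r := zero_lt_one.trans h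
    rw [← avgB_eq_avgN f x hr0] at hlt
    have h2 := hlt.le.trans (avgB_le_mass hf h0 x hr0)
    rw [le_div_iff₀ (by positivity)] at h2
    have h3 : r ≤ r ^ d := le_self_pow₀ h.le (by omega)
    nlinarith [mul_le_mul_of_nonneg_left h3 (mul_pos hm0 hW).le]
  obtain ⟨r, hr, hmax⟩ := (isCompact_Icc (a := (0 : ℝ)) (b := R)).exists_isMaxOn
    ⟨0, le_rfl, le_trans zero_le_one (le_max_left _ _)⟩
    ((continuous_avgN hf).comp (f := fun s : ℝ => (x, s)) (by fun_prop)).continuousOn
  have hle : cmax f x ≤ max m (avgN f x r) := cmax_le fun s hs => by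
    rcases lt_or_ge m (avgN f x s) with h | h
    · exact le_max_of_le_right (hmax ⟨hs, hbound s hs h⟩)
    · exact le_max_of_le_left h
  have heq : avgN f x r = cmax f x := le_antisymm (avgN_le_cmax hf x hr.1)
    ((le_max_iff.1 hle).resolve_left (not_le.2 hm2))
  have hr0 : 0 < r := hr.1.lt_of_ne' fun h => by
    rw [h, avgN_zero] at heq
    exact hx.ne heq
  exact ⟨r, hr0, (avgB_eq_avgN f x hr0).trans heq⟩

theorem avgV_eq (g : E d → E d) (c : E d) {r : ℝ} (hr : 0 < r) :
    avgV g c r = (volume.real (closedBall c r))⁻¹ • ∫ z in closedBall c r, g z := by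
  have h : ∫ z in closedBall c r, g z = ∫ z in closedBall (0 : E d) r, g (c + z) := by
    rw [← (measurePreserving_add_left volume c).setIntegral_preimage_emb
      (MeasurableEquiv.addLeft c).measurableEmbedding g (closedBall c r)]
    congr 2
    ext z
    simp [dist_eq_norm]
  rw [avgV, h, real_closedBall c hr,
    Measure.setIntegral_comp_smul_of_pos volume (fun w => g (c + w)) (closedBall (0 : E d) 1) hr,
    finrank_euclideanSpace_fin, smul_unitClosedBall, Real.norm_eq_abs, abs_of_pos hr, smul_smul,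
    mul_inv_rev]

theorem avgR_eq (g : E d → E d) (c : E d) {r : ℝ} (hr : 0 < r) :
    avgR g c r = (volume.real (closedBall c r))⁻¹ *
      ∫ z in closedBall c r, ⟪g z, r⁻¹ • (z - c)⟫ := by
  have h : avgR g c r = avgN (fun z => ⟪g z, r⁻¹ • (z - c)⟫) c r := by
    simp only [avgR, avgN, add_sub_cancel_left, smul_smul, inv_mul_cancel₀ hr.ne', one_smul]
  rw [h, ← avgB_eq_avgN _ c hr, avgB]

theorem hasFDerivAt_avgN_center (hf : IsC1c f g) (x : E d) (r : ℝ) :
    HasFDerivAt (fun y => avgN f y r)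
      (InnerProductSpace.toDual ℝ (E d) (avgV g x r)) x := by
  obtain ⟨C, hC⟩ := hf.suppGrad.exists_bound_of_continuous hf.cont
  have hint : IntegrableOn (fun z => g (x + r • z)) (closedBall (0 : E d) 1) :=
    (hf.cont.comp (by fun_prop)).continuousOn.integrableOn_compact (isCompact_closedBall _ _)
  have h := hasFDerivAt_integral_of_dominated_of_fderiv_le
    (μ := volume.restrict (closedBall (0 : E d) 1)) (F := fun y z => f (y + r • z))
    (F' := fun y z => InnerProductSpace.toDual ℝ (E d) (g (y + r • z))) (bound := fun _ => C)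
    (x₀ := x) (ball_mem_nhds x one_pos)
    (Eventually.of_forall fun y =>
      (hf.continuous_fun.comp (by fun_prop)).aestronglyMeasurable)
    (integrableOn_param hf x r)
    ((InnerProductSpace.toDual ℝ (E d)).continuous.comp
      (hf.cont.comp (by fun_prop))).aestronglyMeasurable
    (ae_of_all _ fun z y _ => by rw [LinearIsometryEquiv.norm_map]; exact hC _)
    (integrableOn_const measure_closedBall_lt_top.ne)
    (ae_of_all _ fun z y _ =>
      (hasFDerivAt_comp_add_right (r • z)).2 (hf.hasGrad _).hasFDerivAt)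
  have h' := h.const_mul (volume.real (closedBall (0 : E d) 1))⁻¹
  refine h'.congr_fderiv ?_
  rw [avgV, map_smul]
  congr 1
  exact ((InnerProductSpace.toDual ℝ (E d)).toContinuousLinearEquiv :
    E d ≃L[ℝ] (E d →L[ℝ] ℝ)).toContinuousLinearMap.integral_comp_comm hint

theorem hasDerivAt_avgN_radius (hf : IsC1c f g) (x : E d) (r : ℝ) :
    HasDerivAt (fun s => avgN f x s) (avgR g x r) r := by
  obtain ⟨C, hC⟩ := hf.suppGrad.exists_bound_of_continuous hf.cont
  have h := (hasDerivAt_integral_of_dominated_loc_of_deriv_le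
    (μ := volume.restrict (closedBall (0 : E d) 1)) (F := fun s z => f (x + s • z))
    (F' := fun s z => ⟪g (x + s • z), z⟫) (bound := fun _ => C) (x₀ := r)
    (ball_mem_nhds r one_pos)
    (Eventually.of_forall fun s =>
      (hf.continuous_fun.comp (by fun_prop)).aestronglyMeasurable)
    (integrableOn_param hf x r)
    ((hf.cont.comp (by fun_prop)).inner continuous_id).aestronglyMeasurable
    ?_ (integrableOn_const measure_closedBall_lt_top.ne)
    (ae_of_all _ fun z s _ => ?_)).2
  · exact h.const_mul _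
  · refine (ae_restrict_mem measurableSet_closedBall).mono fun z hz s _ => ?_
    exact (norm_inner_le_norm _ _).trans
      ((mul_le_of_le_one_right (norm_nonneg _) (by simpa using hz)).trans (hC _))
  · have := (hf.hasGrad (x + s • z)).hasFDerivAt.comp_hasDerivAt s
      (((hasDerivAt_id s).smul_const z).const_add x)
    simpa [Function.comp_def, InnerProductSpace.toDual_apply_apply] using this

lemma hasGradientAt_cmax {x : E d} (hu : DifferentiableAt ℝ (cmax f) x) :
    HasFDerivAt (cmax f) (InnerProductSpace.toDual ℝ (E d) (gradient (cmax f) x)) x :=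
  hu.hasGradientAt.hasFDerivAt

/-- At a differentiability point the gradient is the average of the gradient over an optimal
ball. -/
theorem gradient_cmax_eq (hf : IsC1c f g) {x : E d} {r : ℝ}
    (hu : DifferentiableAt ℝ (cmax f) x) (hr : 0 ≤ r) (hopt : avgN f x r = cmax f x) :
    gradient (cmax f) x = avgV g x r := by
  have hmin : IsLocalMin (fun y => cmax f y - avgN f y r) x := Eventually.of_forall fun y => by
    simp only [hopt, sub_self]
    linarith [avgN_le_cmax hf y hr]
  have h := hmin.hasFDerivAt_eq_zero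
    ((hasGradientAt_cmax hu).sub (hasFDerivAt_avgN_center hf x r))
  rw [← map_sub] at h
  exact sub_eq_zero.1 ((InnerProductSpace.toDual ℝ (E d)).map_eq_zero_iff.1 h)

theorem gradient_cmax_eq_of_attached (hf : IsC1c f g) {x : E d}
    (hu : DifferentiableAt ℝ (cmax f) x) (hx : cmax f x = f x) :
    gradient (cmax f) x = g x := by
  rw [gradient_cmax_eq hf hu le_rfl (by rw [avgN_zero, hx]), avgV]
  simp only [zero_smul, add_zero, setIntegral_const, smul_smul,
    inv_mul_cancel₀ unitBall_pos.ne', one_smul]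

/-- The radial average vanishes at a positive optimal radius. -/
theorem avgR_eq_zero (hf : IsC1c f g) {x : E d} {r : ℝ} (hr : 0 < r)
    (hopt : avgN f x r = cmax f x) : avgR g x r = 0 := by
  refine IsLocalMax.hasDerivAt_eq_zero ?_ (hasDerivAt_avgN_radius hf x r)
  filter_upwards [Ioi_mem_nhds hr] with s hs
  rw [hopt]
  exact avgN_le_cmax hf x (le_of_lt hs)

theorem continuous_avgV (hf : IsC1c f g) : Continuous fun p : E d × ℝ => avgV g p.1 p.2 := by
  refine (continuous_parametric_integral_of_continuous (μ := (volume : Measure (E d)))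
    (f := fun (p : E d × ℝ) z => g (p.1 + p.2 • z)) ?_
    (isCompact_closedBall (0 : E d) 1)).const_smul (volume.real (closedBall (0 : E d) 1))⁻¹
  exact hf.cont.comp (by fun_prop)

theorem continuous_avgR (hf : IsC1c f g) : Continuous fun p : E d × ℝ => avgR g p.1 p.2 := by
  refine continuous_const.mul (continuous_parametric_integral_of_continuous
    (f := fun (p : E d × ℝ) z => ⟪g (p.1 + p.2 • z), z⟫) ?_ (isCompact_closedBall _ _))
  exact (hf.cont.comp (by fun_prop)).inner (by fun_prop)

/-- Detached differentiability points with an optimal radius in `[a, b]`. -/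
def cscaleSet (f : E d → ℝ) (a b : ℝ) : Set (E d) :=
  {x | f x < cmax f x ∧ DifferentiableAt ℝ (cmax f) x ∧
    ∃ r ∈ Icc a b, avgB f x r = cmax f x}

theorem measurableSet_cscaleSet (hf : IsC1c f g) {a : ℝ} (ha : 0 < a) (b : ℝ) :
    MeasurableSet (cscaleSet f a b) := by
  obtain ⟨L, hL⟩ := exists_lipschitz_cmax hf
  have : CompactSpace (Icc a b) := isCompact_iff_compactSpace.1 isCompact_Icc
  have hC : IsClosed {q : E d × Icc a b | avgN f q.1 q.2 = cmax f q.1} := by
    refine isClosed_eq ?_ (hL.continuous.comp continuous_fst)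
    exact (continuous_avgN hf).comp (f := fun q : E d × Icc a b => (q.1, (q.2 : ℝ))) (by fun_prop)
  have hproj := isClosedMap_fst_of_compactSpace _ hC
  have heq : cscaleSet f a b = {x | f x < cmax f x} ∩ {x | DifferentiableAt ℝ (cmax f) x} ∩
      Prod.fst '' {q : E d × Icc a b | avgN f q.1 q.2 = cmax f q.1} := by
    ext x
    constructor
    · rintro ⟨h1, h2, r, hr, hopt⟩
      refine ⟨⟨h1, h2⟩, (x, ⟨r, hr⟩), ?_, rfl⟩
      show avgN f x r = cmax f x
      rw [← avgB_eq_avgN f x (ha.trans_le hr.1), hopt]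
    · rintro ⟨⟨h1, h2⟩, ⟨y, ⟨r, hr⟩⟩, hopt, rfl⟩
      exact ⟨h1, h2, r, hr, (avgB_eq_avgN f y (ha.trans_le hr.1)).trans hopt⟩
  rw [heq]
  exact (((isOpen_lt hf.continuous_fun hL.continuous).measurableSet.inter
    (measurableSet_of_differentiableAt ℝ (cmax f))).inter hproj.measurableSet)

theorem detached_subset_iUnion_cscaleSet (hd : 0 < d) (hf : IsC1c f g) (h0 : ∀ z, 0 ≤ f z) :
    {x | f x < cmax f x ∧ DifferentiableAt ℝ (cmax f) x} ⊆
      ⋃ k : ℤ, cscaleSet f ((2 : ℝ) ^ k) ((2 : ℝ) ^ (k + 1)) := by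
  rintro x ⟨h1, h2⟩
  obtain ⟨r, hr, hopt⟩ := exists_optimal_radius hd hf h0 h1
  obtain ⟨k, hk1, hk2⟩ := exists_mem_Ico_zpow hr one_lt_two
  exact mem_iUnion.2 ⟨k, h1, h2, r, ⟨hk1, hk2.le⟩, hopt⟩

theorem cmax_scale (f : E d → ℝ) {R : ℝ} (hR : 0 < R) (x : E d) :
    cmax (fun z => f (R • z)) x = cmax f (R • x) := by
  refine congrArg (fun S => sSup (insert (f (R • x)) S)) ?_
  ext v
  constructor
  · rintro ⟨r, hr, rfl⟩
    exact ⟨R * r, mul_pos hR hr, (avgB_comp_smul f hR x hr).symm⟩
  · rintro ⟨r, hr, rfl⟩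
    refine ⟨R⁻¹ * r, mul_pos (inv_pos.2 hR) hr, ?_⟩
    show avgB _ x (R⁻¹ * r) = avgB f (R • x) r
    rw [avgB_comp_smul f hR x (mul_pos (inv_pos.2 hR) hr), ← mul_assoc, mul_inv_cancel₀ hR.ne',
      one_mul]

theorem Mc_eq_cmax (hd : 0 < d) (hf : IsC1c f g) (h0 : ∀ z, 0 ≤ f z) (x : E d) :
    Mc f x = ENNReal.ofReal (cmax f x) := by
  refine le_antisymm (iSup₂_le fun r hr => ?_) ?_
  · rw [ofReal_avgB_eq hd hf h0 x hr]
    exact ENNReal.ofReal_le_ofReal (avgB_le_cmax hf x hr)
  by_cases htop : Mc f x = ⊤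
  · rw [htop]; exact le_top
  have key : ∀ r : ℝ, 0 < r → avgN f x r ≤ (Mc f x).toReal := fun r hr => by
    rw [← ENNReal.ofReal_le_iff_le_toReal htop, ← avgB_eq_avgN f x hr,
      ← ofReal_avgB_eq hd hf h0 x hr]
    exact le_iSup₂_of_le r hr le_rfl
  rw [ENNReal.ofReal_le_iff_le_toReal htop]
  refine cmax_le fun r hr => ?_
  have hlim : Tendsto (fun s => avgN f x s) (𝓝[>] r) (𝓝 (avgN f x r)) :=
    ((continuous_avgN hf).comp (f := fun s : ℝ => (x, s)) (by fun_prop)).tendsto r |>.mono_left
      nhdsWithin_le_nhds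
  exact le_of_tendsto hlim
    (eventually_of_mem self_mem_nhdsWithin fun s (hs : r < s) => key s (hr.trans_lt hs))

theorem Mc_le_Mtilde (f : E d → ℝ) (x : E d) : Mc f x ≤ Mtilde f x :=
  iSup₂_le fun r hr => le_iSup_of_le x (le_iSup₂_of_le r (mem_ball_self hr) le_rfl)

theorem Mc_abs (f : E d → ℝ) : Mc (fun z => |f z|) = Mc f := by
  funext x
  simp only [Mc, Real.enorm_eq_ofReal_abs, abs_abs]

theorem Mc_sub_comm (f h : E d → ℝ) :
    Mc (fun z => f z - h z) = Mc (fun z => h z - f z) := by
  funext x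
  simp only [Mc, Real.enorm_eq_ofReal_abs, abs_sub_comm]

theorem Mc_le_add {f h : E d → ℝ} (hh : AEMeasurable h) (x : E d) :
    Mc f x ≤ Mc h x + Mc (fun z => f z - h z) x := by
  refine iSup₂_le fun r hr => ?_
  refine le_trans ?_ (add_le_add (le_iSup₂_of_le r hr le_rfl) (le_iSup₂_of_le r hr le_rfl))
  rw [← mul_add, ← lintegral_add_left' hh.enorm.restrict]
  gcongr with z
  calc ‖f z‖ₑ = ‖h z + (f z - h z)‖ₑ := by rw [add_sub_cancel]
    _ ≤ _ := enorm_add_le _ _

theorem measurable_Mc {f : E d → ℝ} (hf : AEMeasurable f) : Measurable (Mc f) := by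
  obtain ⟨F, hF, hFf⟩ := hf
  have hcongr : ∀ (x : E d) (r : ℝ), ∫⁻ z in ball x r, ‖f z‖ₑ = ∫⁻ z in ball x r, ‖F z‖ₑ :=
    fun x r => lintegral_congr_ae
      ((ae_restrict_of_ae hFf).mono fun z hz => by simp only [hz])
  have heq : Mc f = fun x => ⨆ q : {q : ℚ // (0 : ℝ) < q},
      (volume (ball x ((q : ℚ) : ℝ)))⁻¹ * ∫⁻ z in ball x ((q : ℚ) : ℝ), ‖F z‖ₑ := by
    funext x
    simp only [Mc, hcongr]
    refine le_antisymm (iSup₂_le fun r hr => ?_)
      (iSup_le fun q => le_iSup₂_of_le (q : ℝ) q.2 le_rfl)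
    let ι := {q : ℚ // (0 : ℝ) < q ∧ (q : ℝ) < r}
    have hU : ball x r = ⋃ q : ι, ball x ((q : ℚ) : ℝ) := by
      ext z
      simp only [mem_iUnion, mem_ball]
      constructor
      · intro hz
        obtain ⟨q, hq1, hq2⟩ := exists_rat_btwn (max_lt hz hr)
        exact ⟨⟨q, (le_max_right _ _).trans_lt hq1, hq2⟩, (le_max_left _ _).trans_lt hq1⟩
      · rintro ⟨q, hq⟩
        exact hq.trans q.2.2
    have hdir : Directed (· ⊆ ·) fun q : ι => ball x ((q : ℚ) : ℝ) := by
      intro p q
      rcases le_total ((p : ℚ) : ℝ) ((q : ℚ) : ℝ) with h | h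
      · exact ⟨q, ball_subset_ball h, subset_rfl⟩
      · exact ⟨p, subset_rfl, ball_subset_ball h⟩
    conv_lhs => arg 2; rw [hU, setLIntegral_iUnion_of_directed _ hdir]
    rw [ENNReal.mul_iSup]
    refine iSup_le fun q => le_iSup_of_le ⟨q, q.2.1⟩ ?_
    exact mul_le_mul' (ENNReal.inv_le_inv.2 (measure_mono (ball_subset_ball q.2.2.le))) le_rfl
  rw [heq]
  refine Measurable.iSup fun q => ?_
  have hball : ∀ x : E d, volume (ball x ((q : ℚ) : ℝ)) = volume (ball (0 : E d) ((q : ℚ) : ℝ)) :=
    fun x => Measure.addHaar_ball_center volume x _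
  simp only [hball]
  refine Measurable.const_mul ?_ _
  have hset : MeasurableSet {p : E d × E d | p.2 ∈ ball p.1 ((q : ℚ) : ℝ)} :=
    measurableSet_lt (measurable_snd.dist measurable_fst) measurable_const
  have := Measurable.lintegral_prod_right' (ν := (volume : Measure (E d)))
    ((hF.enorm.comp measurable_snd).indicator hset)
  convert this using 1
  funext x
  rw [← lintegral_indicator measurableSet_ball]
  rfl

end

end Vale.Agent.P137
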