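import Vale.Agent.P137.C.MaxFun
import Vale.Agent.P137.MaxL1

/-!
Local integrability of the centred maximal function and local `L^1` continuity.
-/

namespace Vale.Agent.P137

open MeasureTheory Metric Set Filter Topology
open scoped ENNReal NNReal ContDiff RealInnerProductSpace

noncomputable section

variable {d : ℕ}

theorem exists_tendsto_local_centred (hd : 2 ≤ d) {f : E d → ℝ} (hf : Integrable f)
    {ψ : ℕ → E d → ℝ} {G : ℕ → E d → E d} {h : E d → E d}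
    (hψ : ∀ n, IsC1c (ψ n) (G n)) (hψ0 : ∀ n z, 0 ≤ ψ n z) (hh : Integrable h)
    (h1 : Tendsto (fun n => ∫ z, |(ψ n z - |f z|)|) atTop (𝓝 0))
    (h2 : Tendsto (fun n => ∫ z, ‖G n z - h z‖) atTop (𝓝 0)) :
    (∀ᵐ x, Mc f x < ⊤) ∧ LocallyIntegrable (fun x => (Mc f x).toReal) ∧
      ∀ R : ℝ, Tendsto (fun n => ∫⁻ x in closedBall (0 : E d) R,
        ‖cmax (ψ n) x - (Mc f x).toReal‖ₑ) atTop (𝓝 0) := by
  have hd0 : 0 < d := by omega
  obtain ⟨hfin, hloc, -⟩ := exists_tendsto_local hd hf hψ hψ0 hh h1 h2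
  obtain ⟨p, hp, hA0⟩ := exists_tendsto_lintegral_pow_sub hd hf hψ hh h1 h2
  obtain ⟨K, hK0, hK⟩ := exists_setLIntegral_Mtilde_le (d := d) hd0 hp
  have hfinc : ∀ᵐ x, Mc f x < ⊤ := hfin.mono fun x hx => (Mc_le_Mtilde f x).trans_lt hx
  have hm : Measurable (Mc f) := measurable_Mc hf.aestronglyMeasurable.aemeasurable
  refine ⟨hfinc, hloc.mono hm.ennreal_toReal.aestronglyMeasurable (hfin.mono fun x hx => ?_),
    fun R => ?_⟩
  · rw [Real.norm_eq_abs, Real.norm_eq_abs, abs_of_nonneg ENNReal.toReal_nonneg,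
      abs_of_nonneg ENNReal.toReal_nonneg]
    exact ENNReal.toReal_mono hx.ne (Mc_le_Mtilde f x)
  have hψc : ∀ n, Continuous (ψ n) := fun n => (hψ n).continuous_fun
  set δ : ℕ → E d → ℝ≥0∞ := fun n => Mtilde (fun z => ψ n z - |f z|) with hδ
  have hle1 : ∀ n x, Mc f x ≤ ENNReal.ofReal (cmax (ψ n) x) + δ n x := by
    intro n x
    rw [← Mc_eq_cmax hd0 (hψ n) (hψ0 n) x, ← Mc_abs f]
    refine (Mc_le_add (hψc n).aemeasurable x).trans (add_le_add le_rfl ?_)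
    rw [Mc_sub_comm]
    exact Mc_le_Mtilde _ x
  have hle2 : ∀ n x, ENNReal.ofReal (cmax (ψ n) x) ≤ Mc f x + δ n x := by
    intro n x
    rw [← Mc_eq_cmax hd0 (hψ n) (hψ0 n) x, ← Mc_abs f]
    exact (Mc_le_add hf.abs.aemeasurable x).trans (add_le_add le_rfl (Mc_le_Mtilde _ x))
  have hmain : ∀ n, ∫⁻ x in closedBall (0 : E d) R, ‖cmax (ψ n) x - (Mc f x).toReal‖ₑ ≤
      ∫⁻ x in closedBall (0 : E d) R, δ n x := by
    intro n
    refine lintegral_mono_ae ((ae_restrict_of_ae hfinc).mono fun x hx => ?_)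
    rcases eq_or_ne (δ n x) ⊤ with hD | hD
    · rw [hD]; exact le_top
    have hc0 : 0 ≤ cmax (ψ n) x := (hψ0 n x).trans (le_cmax (hψ n) x)
    rw [Real.enorm_eq_ofReal_abs, ← ENNReal.ofReal_toReal hD]
    refine ENNReal.ofReal_le_ofReal (abs_sub_le_iff.2 ⟨?_, ?_⟩)
    · have h4 := ENNReal.toReal_mono (ENNReal.add_ne_top.2 ⟨hx.ne, hD⟩) (hle2 n x)
      rw [ENNReal.toReal_add hx.ne hD, ENNReal.toReal_ofReal hc0] at h4
      linarith
    · have h4 := ENNReal.toReal_mono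
        (ENNReal.add_ne_top.2 ⟨ENNReal.ofReal_ne_top, hD⟩) (hle1 n x)
      rw [ENNReal.toReal_add ENNReal.ofReal_ne_top hD, ENNReal.toReal_ofReal hc0] at h4
      linarith
  rw [ENNReal.tendsto_nhds_zero]
  intro ε hε
  have hv : Tendsto (fun a : ℝ => ENNReal.ofReal a * volume (closedBall (0 : E d) R))
      (𝓝[>] 0) (𝓝 0) := by
    have h5 : Tendsto (fun a : ℝ => ENNReal.ofReal a) (𝓝[>] 0) (𝓝 0) := by
      simpa using ENNReal.tendsto_ofReal ((tendsto_id (x := 𝓝 (0 : ℝ))).mono_left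
        nhdsWithin_le_nhds)
    simpa using ENNReal.Tendsto.mul_const h5 (Or.inr measure_closedBall_lt_top.ne)
  obtain ⟨a, ha, ha0⟩ := ((hv.eventually (eventually_le_nhds (ENNReal.half_pos hε.ne'))).and
    self_mem_nhdsWithin).exists
  have h6 : Tendsto (fun n => ENNReal.ofReal (K * a ^ (1 - p)) *
      ∫⁻ z, ‖ψ n z - |f z|‖ₑ ^ p) atTop (𝓝 0) := by
    simpa using ENNReal.Tendsto.const_mul hA0 (Or.inr ENNReal.ofReal_ne_top)
  filter_upwards [h6.eventually (eventually_le_nhds (ENNReal.half_pos hε.ne'))] with n hn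
  calc _ ≤ _ := (hmain n).trans
        (hK _ ((hψc n).aemeasurable.sub hf.abs.aemeasurable) _ a ha0)
    _ ≤ ε / 2 + ε / 2 := add_le_add ha hn
    _ = ε := ENNReal.add_halves ε

end

end Vale.Agent.P137
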